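import Vale.Agent.P141.H205.HPart
import Vale.Agent.P141.H769.EN3
import Vale.Agent.P141.H206.EN2
import Vale.Agent.P141.H305.TopDefs

/-!
# P141, line (A): the data of the slot `C` for the unsplit price

`famK_C` : the killed slot `C = fC v (kF Λ a K F2)` with `v · v ≤ a ^ 2` is a family `FamK` on the
pair `(x1, x3)`, own energies summed over `x0` at most `8 Λ² (cP + 2) ez² (A2 √A4) 8 ^ K`, square
energies at most `4 Λ (cP + 2) ez A2 8 ^ K`.  No caps, no uniformity: the fourth moments of a slot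
with line energies `ez` (`H206.mo4_of_l`).
-/

namespace Vale.Agent.P141.H508

open Finset Matrix
open Vale.Agent.P141.PL (Pt iv ix mem_iv ix_ix cx)
open Vale.Agent.P141.PL.H315 (A2)
open Vale.Agent.P141.H736 (Path sqb sqQ)
open Vale.Agent.P141.H958 (Aff s4 pwr mem_Aff sum_Aff PackQ)
open Vale.Agent.P141.H48 (own4 pth Qth sst BSl Mo4 A4 ES)
open Vale.Agent.P141.H677 (kF fC)
open Vale.Agent.P141.H205 (FamK ownK pwrK GQ tr_GQ_sq s4_un)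

noncomputable section

open scoped Classical

variable {κ : Type*} [Fintype κ]

/-- Cauchy-Schwarz for label vectors. -/
theorem dot_abs_le {a b : κ → ℝ} {p q : ℝ} (hp : 0 ≤ p) (hq : 0 ≤ q) (ha : a ⬝ᵥ a ≤ p ^ 2)
    (hb : b ⬝ᵥ b ≤ q ^ 2) : |a ⬝ᵥ b| ≤ p * q := by
  refine abs_le_of_sq_le_sq ?_ (mul_nonneg hp hq)
  have h1 : (a ⬝ᵥ b) ^ 2 ≤ (a ⬝ᵥ a) * (b ⬝ᵥ b) := by
    have h := sum_mul_sq_le_sq_mul_sq univ a b
    have e1 : a ⬝ᵥ a = ∑ i, a i ^ 2 := sum_congr rfl fun i _ => (sq _).symm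
    have e2 : b ⬝ᵥ b = ∑ i, b i ^ 2 := sum_congr rfl fun i _ => (sq _).symm
    rw [e1, e2]
    exact h
  have h0 : 0 ≤ b ⬝ᵥ b := sum_nonneg fun i _ => mul_self_nonneg _
  calc (a ⬝ᵥ b) ^ 2 ≤ (a ⬝ᵥ a) * (b ⬝ᵥ b) := h1
    _ ≤ p ^ 2 * q ^ 2 := mul_le_mul ha hb h0 (sq_nonneg _)
    _ = (p * q) ^ 2 := by ring

/-- The energies of a slot do not see the signs. -/
theorem bsl_abs {n : ℕ} {e cP : ℝ} {F : ℕ → Pt → ℝ} {Q : ℕ → Pt → Prop} (h : BSl n e cP F Q) :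
    BSl n e cP (fun k q => |F k q|) Q where
  agree k h1 h2 m hq y hy := by
    show |F (k + 1) y| = |F k y|
    rw [h.agree k h1 h2 m hq y hy]
  pack := h.pack
  l0 k hk m x y := by
    simp only [sq_abs]
    exact h.l0 k hk m x y
  l1 k hk m z y := by
    simp only [sq_abs]
    exact h.l1 k hk m z y
  l2 k hk m z x := by
    simp only [sq_abs]
    exact h.l2 k hk m z x

variable {Λ : ℝ} {a : ℤ × ℤ → ℝ} {K : ℕ} {F : ℕ → Pt → ℝ} {v : ℤ → ℤ → κ → ℝ} {R S : ℤ}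

/-- The vectors of the slot against the scalar path of the absolute values. -/
theorem vec_le (ha : ∀ x ∈ iv K R, ∀ z ∈ iv K S, 0 ≤ a (x, z) ∧ v x z ⬝ᵥ v x z ≤ a (x, z) ^ 2)
    (x0 : ℤ) (k : ℕ) {x z z' : ℤ} (hx : x ∈ iv K R) (hz : z ∈ iv K S) (hz' : z' ∈ iv K S) :
    |fC v (kF Λ a K F) x0 k z x ⬝ᵥ fC v (kF Λ a K F) x0 k z' x| ≤
      pth Λ a K (fun k q => |F k q|) x0 k x z * pth Λ a K (fun k q => |F k q|) x0 k x z' := by
  have h1 := dot_abs_le (ha x hx z hz).1 (ha x hx z' hz').1 (ha x hx z hz).2 (ha x hx z' hz').2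
  unfold fC
  rw [smul_dotProduct, dotProduct_smul, smul_eq_mul, smul_eq_mul, abs_mul, abs_mul]
  have e : ∀ z, pth Λ a K (fun k q => |F k q|) x0 k x z =
      a (x, z) * |kF Λ a K F k (x0, x, z)| := by
    intro z
    unfold pth kF
    simp only
    split_ifs
    · simp
    · rfl
  rw [e, e]
  calc |kF Λ a K F k (x0, x, z)| * (|kF Λ a K F k (x0, x, z')| * |v x z ⬝ᵥ v x z'|)
      ≤ |kF Λ a K F k (x0, x, z)| * (|kF Λ a K F k (x0, x, z')| * (a (x, z) * a (x, z'))) := by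
        gcongr
    _ = _ := by ring

theorem root_mem {k n x : ℤ} {j : ℕ} (hj : j ≤ K) (hn : n ∈ iv (K - j) k) (hx : x ∈ iv j n) :
    x ∈ iv K k := by
  rw [mem_iv] at hn hx ⊢
  rw [← Nat.add_sub_cancel' hj, ← ix_ix, hx, hn]

/-- Own energies of the slot. -/
theorem ownK_le (ha : ∀ x ∈ iv K R, ∀ z ∈ iv K S, 0 ≤ a (x, z) ∧ v x z ⬝ᵥ v x z ≤ a (x, z) ^ 2)
    (x0 : ℤ) (Q : ℕ → ℤ → ℤ → Prop) :
    ownK K R S Q (fun k x z => fC v (kF Λ a K F) x0 k z x) ≤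
      own4 K R S Q (pth Λ a K (fun k q => |F k q|) x0) := by
  unfold ownK own4
  refine sum_le_sum fun i hi => ?_
  rw [mem_Aff] at hi
  refine mul_le_mul_of_nonneg_left ?_ (by positivity)
  rw [s4_un, tr_GQ_sq, tr_GQ_sq]
  refine mul_le_mul_of_nonneg_left ?_ (by positivity)
  refine sum_le_sum fun z hz => sum_le_sum fun z' hz' => ?_
  have hz1 := root_mem hi.1.le hi.2.2.1 hz
  have hz1' := root_mem hi.1.le hi.2.2.1 hz'
  refine sq_le_sq' ?_ ?_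
  · rw [neg_le]
    refine (neg_le_abs _).trans ((abs_sum_le_sum_abs _ _).trans (sum_le_sum fun x hx => ?_))
    refine (vec_le ha x0 (i.1 + 1) (root_mem hi.1.le hi.2.1 hx) hz1 hz1').trans (le_of_eq ?_)
    simp [H103.un, dotProduct]
  · refine (le_abs_self _).trans ((abs_sum_le_sum_abs _ _).trans (sum_le_sum fun x hx => ?_))
    refine (vec_le ha x0 (i.1 + 1) (root_mem hi.1.le hi.2.1 hx) hz1 hz1').trans (le_of_eq ?_)
    simp [H103.un, dotProduct]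

/-- Square energies of the slot. -/
theorem pwrK_le (ha : ∀ x ∈ iv K R, ∀ z ∈ iv K S, 0 ≤ a (x, z) ∧ v x z ⬝ᵥ v x z ≤ a (x, z) ^ 2)
    (x0 : ℤ) (Q : ℕ → ℤ → ℤ → Prop) :
    pwrK K R S Q (fun k x z => fC v (kF Λ a K F) x0 k z x) ≤
      pwr K R S Q (pth Λ a K (fun k q => |F k q|) x0) := by
  have h1 : pwr K R S Q (pth Λ a K (fun k q => |F k q|) x0) = ∑ i ∈ Aff K R S Q,
      ∑ z ∈ iv i.1 i.2.2, ∑ x ∈ iv i.1 i.2.1,
        pth Λ a K (fun k q => |F k q|) x0 (i.1 + 1) x z ^ 2 := by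
    rw [sum_Aff]
    rfl
  rw [h1]
  unfold pwrK
  refine sum_le_sum fun i hi => ?_
  rw [mem_Aff] at hi
  rw [sum_comm]
  refine sum_le_sum fun z hz => sum_le_sum fun x hx => ?_
  have hz1 := root_mem hi.1.le hi.2.2.1 hz
  refine (le_abs_self _).trans ((vec_le ha x0 (i.1 + 1) (root_mem hi.1.le hi.2.1 hx) hz1
    hz1).trans (le_of_eq (sq _).symm))

/-- the scalar path is the gauge times the killed input -/
theorem pth_kF (x0 : ℤ) (k : ℕ) (x z : ℤ) :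
    pth Λ a K F x0 k x z = a (x, z) * kF Λ a K F k (x0, x, z) := by
  unfold pth kF
  simp only
  split_ifs
  · simp
  · rfl

/-- Paths of the slot. -/
theorem path_C {n : ℕ} {e cP : ℝ} {Q : ℕ → Pt → Prop} (hcP : 0 ≤ cP) (h : BSl n e cP F Q)
    (hK : K ≤ n) {x1 x3 : ℤ}
    (ha : ∀ x ∈ iv K (ix K x1), ∀ z ∈ iv K (ix K x3),
      0 ≤ a (x, z) ∧ v x z ⬝ᵥ v x z ≤ a (x, z) ^ 2) (x0 : ℤ) (l : κ) :
    Path K (ix K x1) (ix K x3) (Qth Λ a K Q x0)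
      (fun k x z => fC v (kF Λ a K F) x0 k z x l) := by
  have h1 := (H769.pthSt Λ n e cP F Q hcP h K hK a x1 x3 x0).1
  intro k hk i hi j hj hq x hx z hz
  have h2 := h1 k hk i hi j hj hq x hx z hz
  rw [pth_kF, pth_kF] at h2
  have hx1 := root_mem hk.le hi hx
  have hz1 := root_mem hk.le hj hz
  show kF Λ a K F (k + 1) (x0, x, z) * v x z l = kF Λ a K F k (x0, x, z) * v x z l
  by_cases h0 : a (x, z) = 0
  · have h3 := (ha x hx1 z hz1).2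
    rw [h0] at h3
    have h4 : v x z ⬝ᵥ v x z = 0 :=
      le_antisymm (h3.trans (by norm_num)) (sum_nonneg fun _ _ => mul_self_nonneg _)
    have h5 : v x z = 0 := dotProduct_self_eq_zero.1 h4
    rw [h5]
    simp
  · rw [mul_left_cancel₀ h0 h2]

/-- **The slot `C` as a family**, numbers with the local averages of the gauge. -/
theorem famK_C {n : ℕ} {e cP : ℝ} {Q : ℕ → Pt → Prop} (hΛ : 1 ≤ Λ) (he : 0 ≤ e) (hcP : 0 ≤ cP)
    (h : BSl n e cP F Q) (hK : K ≤ n) {x1 x3 : ℤ}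
    (ha : ∀ x ∈ iv K (ix K x1), ∀ z ∈ iv K (ix K x3),
      0 ≤ a (x, z) ∧ v x z ⬝ᵥ v x z ≤ a (x, z) ^ 2) (t : ℤ) :
    FamK K (ix K x1) (ix K x3) (iv K t) (fun x0 => Qth Λ a K Q x0)
      (fun x0 k x z => fC v (kF Λ a K F) x0 k z x) (cP + 2)
      (8 * Λ ^ 2 * (cP + 2) * e ^ 2 * (A2 K a x1 x3 * √(A4 K a x1 x3)) * 8 ^ K)
      (4 * Λ * (cP + 2) * e * A2 K a x1 x3 * 8 ^ K) where
  path x0 _ l := path_C hcP h hK ha x0 l
  zero x0 _ := by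
    funext x z l
    show kF Λ a K F 0 (x0, x, z) * v x z l = 0
    unfold kF
    rw [if_pos (Or.inl rfl), zero_mul]
  pack x0 _ := (H769.pthSt Λ n e cP F Q hcP h K hK a x1 x3 x0).2.2
  own := by
    have h1 := (H769.ownSt hΛ n e cP (e ^ 2) (fun k q => |F k q|) Q hcP he (sq_nonneg _)
      (bsl_abs h) (H206.mo4_of_l he (bsl_abs h)) K hK a x1 x3 t).1
    exact (sum_le_sum fun x0 _ => ownK_le ha x0 _).trans h1
  pow := by
    have h1 := (H769.ownSt hΛ n e cP (e ^ 2) (fun k q => |F k q|) Q hcP he (sq_nonneg _)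
      (bsl_abs h) (H206.mo4_of_l he (bsl_abs h)) K hK a x1 x3 t).2
    exact (sum_le_sum fun x0 _ => pwrK_le ha x0 _).trans h1

/-- fourth powers of a gauge of height one -/
theorem A4_le_A2 {k : ℕ} {a : ℤ × ℤ → ℝ} {x y : ℤ}
    (ha : ∀ p ∈ PL.H315.iv k x ×ˢ PL.H315.iv k y, a p ^ 2 ≤ 1) : A4 k a x y ≤ A2 k a x y := by
  unfold A4 A2
  refine H550.avg_mono fun p hp => ?_
  have h1 := ha p hp
  nlinarith [sq_nonneg (a p)]

/-- **The slot `C` as a family, numbers** `8 Λ² (cP + 2) ez² s^(3/2)`, `4 Λ (cP + 2) ez s`. -/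
theorem famK_Cs {n : ℕ} {e cP s : ℝ} (hΛ : 1 ≤ Λ) (hcP : 0 ≤ cP) (h : ES n e cP F) (hK : K ≤ n)
    {x1 x3 : ℤ} (hs : A2 K a x1 x3 ≤ s)
    (ha : ∀ x ∈ iv K (ix K x1), ∀ z ∈ iv K (ix K x3),
      0 ≤ a (x, z) ∧ a (x, z) ≤ 1 ∧ v x z ⬝ᵥ v x z ≤ a (x, z) ^ 2) :
    ∃ Q : ℕ → Pt → Prop, ∀ t : ℤ,
    FamK K (ix K x1) (ix K x3) (iv K t) (fun x0 => Qth Λ a K Q x0)
      (fun x0 k x z => fC v (kF Λ a K F) x0 k z x) (cP + 2)
      (8 * Λ ^ 2 * (cP + 2) * e ^ 2 * (s * √s) * 8 ^ K)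
      (4 * Λ * (cP + 2) * e * s * 8 ^ K) := by
  obtain ⟨he, Q, hB⟩ := h
  refine ⟨Q, fun t => ?_⟩
  have h1 := famK_C hΛ he hcP hB hK (fun x hx z hz => ⟨(ha x hx z hz).1, (ha x hx z hz).2.2⟩) t
  have h0 : 0 ≤ A2 K a x1 x3 := PL.H315.A2_nonneg _ _ _ _
  have h4 : A4 K a x1 x3 ≤ A2 K a x1 x3 := by
    refine A4_le_A2 fun p hp => ?_
    rw [mem_product, H769.iv_pt, H769.iv_pt] at hp
    have h5 := ha p.1 hp.1 p.2 hp.2
    nlinarith [h5.1, h5.2.1]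
  have h6 : A2 K a x1 x3 * √(A4 K a x1 x3) ≤ s * √s :=
    mul_le_mul hs (Real.sqrt_le_sqrt (h4.trans hs)) (Real.sqrt_nonneg _) (h0.trans hs)
  exact {
    path := h1.path
    zero := h1.zero
    pack := h1.pack
    own := h1.own.trans (by gcongr)
    pow := h1.pow.trans (by gcongr) }

/-- **The slot `C` of class data**, in the letters of `H205.NS_nf3_le`. -/
theorem famK_Cls {n : ℕ} {ez cP s r P : ℝ} {U : PL.H315.Tri} {g : ℤ → ℤ → ℝ}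
    {u v : ℤ → ℤ → κ → ℝ} {F2 : ℕ → Pt → ℝ} {x : Pt} (hΛ : 1 ≤ Λ) (hcP : 0 ≤ cP)
    (h : ES n ez cP F2) (hK : K ≤ n) (hc : H305.Cls K x s r P U g u v) :
    ∃ Q : ℕ → Pt → Prop, ∀ t : ℤ,
    FamK K (cx K x).1 (cx K x).2.2 (iv K t) (fun x0 => Qth Λ U.2.1 K Q x0)
      (fun x0 k x z => fC v (kF Λ U.2.1 K F2) x0 k z x) (cP + 2)
      (8 * Λ ^ 2 * (cP + 2) * ez ^ 2 * (s * √s) * 8 ^ K)
      (4 * Λ * (cP + 2) * ez * s * 8 ^ K) := by
  refine famK_Cs hΛ hcP h hK hc.U_v2 fun w hw z hz => ?_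
  rw [← H769.iv_pt] at hw hz
  have h1 := hc.U_v w hw z hz
  exact ⟨h1.1, h1.2, hc.v_le w hw z hz⟩

end

end Vale.Agent.P141.H508
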