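import Vale.Agent.P141.H508.OwnC
import Vale.Agent.P141.H204.Vec

/-!
# P141, line (A): the data of the full slots `A` and `b` for the unsplit price

`fam0_A` : the killed slot `A = fA g (kF Λ g K F1)` (rows `x3`, columns `x2`).
`famK_b` : the killed labelled slot `b = fb u (kF Λ a K F3)`, `u · u ≤ a ^ 2`, with the fourth
moments of the slot (`Mo4`): own energies summed over `x0` at most
`24 Λ² (cP + 2) M (A2 √A4) 8 ^ K`.
`fam0_Cls`, `famK_bCls` : the same for class data and uniform slots.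
-/

namespace Vale.Agent.P141.H508

open Finset Matrix
open Vale.Agent.P141.PL (Pt iv ix mem_iv ix_ix cx)
open Vale.Agent.P141.PL.H315 (A2 avg avg_nonneg)
open Vale.Agent.P141.H550 (avg_congr avg_mono avg_mul_left)
open Vale.Agent.P141.H736 (Path sqb sqQ)
open Vale.Agent.P141.H958 (Aff s4 pwr mem_Aff sum_Aff PackQ fl)
open Vale.Agent.P141.H48 (own4 pth Qth sst BSl Mo4 A4 ES US)
open Vale.Agent.P141.H677 (kF fA fb fC)
open Vale.Agent.P141.H205 (FamK ownK pwrK GQ tr_GQ_sq s4_un Aff_fl packQ_fl)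
open Vale.Agent.P141.H971 (Fam0)
open Vale.Agent.P141.H922 (n2 n4)
open Vale.Agent.P141.H204 (mo4t mo4t_le vn vn_sq vn_nonneg)
open Vale.Agent.P141.H769 (sl mo4f_eq sum_eq_avg ix_of_le corner sst_congr ptiv_congr not_sst_le
  slice_sum root_pack Qcb A4_nonneg n2_sq_iv n4_sq_iv)

noncomputable section

open scoped Classical

variable {κ : Type*} [Fintype κ]

/-! ### The slot `A` -/

theorem own4_fl (N : ℕ) (R S : ℤ) (Q : ℕ → ℤ → ℤ → Prop) (F : ℕ → ℤ → ℤ → ℝ) :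
    own4 N S R (fl Q) (fun k z y => F k y z) = own4 N R S Q F := by
  unfold own4
  rw [Aff_fl N R S Q fun i => (4 : ℝ) ^ i.1 *
    s4 i.1 i.1 ((fun k z y => F k y z) (i.1 + 1)) i.2.1 i.2.2]
  refine sum_congr rfl fun i _ => ?_
  simp only
  rw [H958.s4_swap]

theorem pwr_fl (N : ℕ) (R S : ℤ) (Q : ℕ → ℤ → ℤ → Prop) (F : ℕ → ℤ → ℤ → ℝ) :
    pwr N S R (fl Q) (fun k z y => F k y z) = pwr N R S Q F := by
  unfold pwr sqQ
  refine sum_congr rfl fun k _ => ?_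
  rw [sum_comm]
  refine sum_congr rfl fun m _ => sum_congr rfl fun n _ => ?_
  unfold fl sqb
  split_ifs
  · exact sum_comm
  · rfl

theorem path_fl {N : ℕ} {R S : ℤ} {Q : ℕ → ℤ → ℤ → Prop} {F : ℕ → ℤ → ℤ → ℝ}
    (h : Path N R S Q F) : Path N S R (fl Q) (fun k z y => F k y z) := by
  intro k hk n hn m hm hq z hz y hy
  exact h k hk m hm n hn hq y hy z hz

variable {Λ : ℝ} {K : ℕ}

/-- **The slot `A` as a family.** -/
theorem fam0_A {n : ℕ} {e cP M : ℝ} {F : ℕ → Pt → ℝ} {Q : ℕ → Pt → Prop} (hΛ : 1 ≤ Λ)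
    (he : 0 ≤ e) (hcP : 0 ≤ cP) (hM : 0 ≤ M) (h : BSl n e cP F Q) (hMo : Mo4 n M F) (hK : K ≤ n)
    (g : ℤ × ℤ → ℝ) (x2 x3 t : ℤ) :
    Fam0 K (ix K x3) (ix K x2) (iv K t) (fun x0 k i j => Qth Λ g K Q x0 k j i)
      (fun x0 => fA g (kF Λ g K F) x0) (cP + 2)
      (8 * Λ ^ 2 * (cP + 2) * M * (A2 K g x2 x3 * √(A4 K g x2 x3)) * 8 ^ K)
      (4 * Λ * (cP + 2) * e * A2 K g x2 x3 * 8 ^ K) := by
  have e1 : ∀ x0, (fA g (kF Λ g K F) x0) = fun k z y => pth Λ g K F x0 k y z := by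
    intro x0
    funext k
    exact H677.fA_kF Λ g K F x0 k
  have h1 := H769.ownSt hΛ n e cP M F Q hcP he hM h hMo K hK g x2 x3 t
  have hp := fun x0 => H769.pthSt Λ n e cP F Q hcP h K hK g x2 x3 x0
  constructor
  · intro x0 _
    rw [e1]
    exact path_fl (hp x0).1
  · intro x0 _
    rw [e1]
    funext z y
    show pth Λ g K F x0 0 y z = 0
    rw [(hp x0).2.1]
    rfl
  · intro x0 _
    exact packQ_fl (hp x0).2.2
  · refine le_trans (le_of_eq ?_) h1.1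
    refine sum_congr rfl fun x0 _ => ?_
    rw [e1]
    exact own4_fl K (ix K x2) (ix K x3) (Qth Λ g K Q x0) (pth Λ g K F x0)
  · refine le_trans (le_of_eq ?_) h1.2
    refine sum_congr rfl fun x0 _ => ?_
    rw [e1]
    exact pwr_fl K (ix K x2) (ix K x3) (Qth Λ g K Q x0) (pth Λ g K F x0)

/-! ### The slot `b` -/

/-- the labelled square in averages -/
theorem tr_GQ_avg (k : ℕ) (b : ℤ → ℤ → κ → ℝ) (n m : ℤ) :
    (GQ k b n m * GQ k b n m).trace = avg (iv k m) fun y => avg (iv k m) fun y' =>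
      (∑ l, avg (iv k n) fun x => b x y l * b x y' l) ^ 2 := by
  rw [tr_GQ_sq]
  have e1 : ∀ y y', (∑ l, avg (iv k n) fun x => b x y l * b x y' l) =
      ((2 : ℝ) ^ k)⁻¹ * ∑ x ∈ iv k n, b x y ⬝ᵥ b x y' := by
    intro y y'
    simp only [H338.avg_iv, dotProduct]
    rw [← mul_sum, sum_comm]
  simp only [e1]
  simp only [H338.avg_iv, mul_pow, ← mul_sum]
  rw [← mul_assoc, ← mul_assoc]
  congr 1
  rw [mul_inv, inv_pow]
  ring

/-- averages of the majorant -/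
theorem n2_vn_le {k : ℕ} {r s : ℤ} {a : ℤ × ℤ → ℝ} {u : ℤ → ℤ → κ → ℝ}
    (h : ∀ x ∈ iv k r, ∀ y ∈ iv k s, u x y ⬝ᵥ u x y ≤ a (x, y) ^ 2) :
    n2 (iv k r ×ˢ iv k s) (vn fun l p => u p.1 p.2 l) ^ 2 ≤
      A2 k a (2 ^ k * r) (2 ^ k * s) := by
  rw [← n2_sq_iv, H922.n2_sq, H922.n2_sq]
  refine avg_mono fun p hp => ?_
  rw [mem_product] at hp
  rw [vn_sq]
  refine le_trans (le_of_eq ?_) (h p.1 hp.1 p.2 hp.2)
  exact sum_congr rfl fun l _ => sq _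

theorem n4_vn_le {k : ℕ} {r s : ℤ} {a : ℤ × ℤ → ℝ} {u : ℤ → ℤ → κ → ℝ}
    (h : ∀ x ∈ iv k r, ∀ y ∈ iv k s, u x y ⬝ᵥ u x y ≤ a (x, y) ^ 2) :
    n4 (iv k r ×ˢ iv k s) (vn fun l p => u p.1 p.2 l) ^ 2 ≤
      √(A4 k a (2 ^ k * r) (2 ^ k * s)) := by
  rw [← n4_sq_iv, H922.n4_sq, H922.n4_sq]
  refine Real.sqrt_le_sqrt (avg_mono fun p hp => ?_)
  rw [mem_product] at hp
  have h1 : vn (fun l (p : ℤ × ℤ) => u p.1 p.2 l) p ^ 2 ≤ a (p.1, p.2) ^ 2 := by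
    rw [vn_sq]
    refine le_trans (le_of_eq ?_) (h p.1 hp.1 p.2 hp.2)
    exact sum_congr rfl fun l _ => sq _
  calc vn (fun l (p : ℤ × ℤ) => u p.1 p.2 l) p ^ 4 =
      (vn (fun l (p : ℤ × ℤ) => u p.1 p.2 l) p ^ 2) ^ 2 := by ring
    _ ≤ (a (p.1, p.2) ^ 2) ^ 2 := pow_le_pow_left₀ (sq_nonneg _) h1 2
    _ = a (p.1, p.2) ^ 4 := by ring

/-- **one square**, sum over the points of a cell -/
theorem trb_block [DecidableEq κ] {M : ℝ} (hΛ : 1 ≤ Λ) (hM : 0 ≤ M) {n : ℕ} {F : ℕ → Pt → ℝ}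
    (hMo : Mo4 n M F) (hK : K ≤ n) {a : ℤ × ℤ → ℝ} {u : ℤ → ℤ → κ → ℝ} {k : ℕ} (hk : k < K)
    (q0 r s : ℤ) {X Y : ℤ} (hX : ix (K - k) r = ix K X) (hY : ix (K - k) s = ix K Y)
    (ha : ∀ x ∈ iv K (ix K X), ∀ y ∈ iv K (ix K Y), u x y ⬝ᵥ u x y ≤ a (x, y) ^ 2) :
    ∑ x0 ∈ iv k q0, (GQ k (fun x y => fC u (kF Λ a K F) x0 (k + 1) y x) r s *
        GQ k (fun x y => fC u (kF Λ a K F) x0 (k + 1) y x) r s).trace ≤
      2 ^ k * (24 * Λ ^ 2 * M * (A2 K a X Y * √(A4 K a X Y))) := by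
  have hA2 : 0 ≤ A2 K a X Y := PL.H315.A2_nonneg _ _ _ _
  have hA4 : 0 ≤ A4 K a X Y := A4_nonneg _ _ _ _
  have hpos : 0 ≤ 2 ^ k * (24 * Λ ^ 2 * M * (A2 K a X Y * √(A4 K a X Y))) := by positivity
  have hcx : ix K (2 ^ k * r) = ix K X := by
    rw [← hX, ← Nat.add_sub_cancel' hk.le, ← ix_ix, H769.ix_two_pow_mul, Nat.add_sub_cancel_left]
  have hcy : ix K (2 ^ k * s) = ix K Y := by
    rw [← hY, ← Nat.add_sub_cancel' hk.le, ← ix_ix, H769.ix_two_pow_mul, Nat.add_sub_cancel_left]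
  by_cases hst : sst Λ a K (k + 1) (2 ^ k * r) (2 ^ k * s)
  · refine le_trans (le_of_eq ?_) hpos
    refine sum_eq_zero fun x0 _ => ?_
    rw [tr_GQ_sq]
    refine mul_eq_zero_of_right _ (sum_eq_zero fun y hy => sum_eq_zero fun y' hy' => ?_)
    rw [sum_eq_zero, zero_pow two_ne_zero]
    intro x hx
    unfold fC kF
    rw [if_pos, zero_smul, zero_dotProduct]
    right
    exact (sst_congr (ix_of_le (Nat.le_succ k) (corner k hx))
      (ix_of_le (Nat.le_succ k) (corner k hy))).2 hst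
  · have e1 : ∀ x0 ∈ iv k q0, (GQ k (fun x y => fC u (kF Λ a K F) x0 (k + 1) y x) r s *
        GQ k (fun x y => fC u (kF Λ a K F) x0 (k + 1) y x) r s).trace =
        avg (iv k s) fun y => avg (iv k s) fun y' => (∑ l, avg (iv k r) fun x =>
          sl (fun x y => u x y l) (fun q => F (k + 1) (q.2.2, q.1, q.2.1)) x0 x y *
          sl (fun x y => u x y l) (fun q => F (k + 1) (q.2.2, q.1, q.2.1)) x0 x y') ^ 2 := by
      intro x0 _
      rw [tr_GQ_avg]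
      refine avg_congr fun y hy => avg_congr fun y' hy' => ?_
      congr 1
      refine sum_congr rfl fun l _ => avg_congr fun x hx => ?_
      have hn : ∀ y ∈ iv k s, ¬ sst Λ a K (k + 1) x y := fun y hy h' => hst
        ((sst_congr (ix_of_le (Nat.le_succ k) (corner k hx))
          (ix_of_le (Nat.le_succ k) (corner k hy))).1 h')
      have e2 : ∀ y ∈ iv k s, fC u (kF Λ a K F) x0 (k + 1) y x l =
          sl (fun x y => u x y l) (fun q => F (k + 1) (q.2.2, q.1, q.2.1)) x0 x y := by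
        intro y hy
        show kF Λ a K F (k + 1) (x0, x, y) * u x y l = u x y l * F (k + 1) (x0, x, y)
        unfold kF
        rw [if_neg, mul_comm]
        push Not
        exact ⟨by omega, hn y hy⟩
      rw [e2 y hy, e2 y' hy']
    rw [sum_congr rfl e1, sum_eq_avg]
    refine mul_le_mul_of_nonneg_left ?_ (by positivity)
    have h1 := mo4t_le (A := iv k r) (B := iv k s) (C := iv k q0)
      (G := fun q => F (k + 1) (q.2.2, q.1, q.2.1)) hM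
      (fun a' => by
        have h2 := hMo k (hk.trans_le hK) (q0, r, s) a'
        rw [mo4f_eq] at h2
        exact h2) (fun l x y => u x y l)
    refine h1.trans ?_
    obtain ⟨h2, h3⟩ := not_sst_le hk hst
    have hroot : ∀ x ∈ iv k r, ∀ y ∈ iv k s, u x y ⬝ᵥ u x y ≤ a (x, y) ^ 2 := by
      intro x hx y hy
      refine ha x ?_ y ?_
      · rw [mem_iv, ← hX, ← mem_iv.1 hx, ix_ix, Nat.add_sub_cancel' hk.le]
      · rw [mem_iv, ← hY, ← mem_iv.1 hy, ix_ix, Nat.add_sub_cancel' hk.le]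
    have h6 := n2_vn_le hroot
    have h7 := n4_vn_le hroot
    have e3 : A2 K a (2 ^ k * r) (2 ^ k * s) = A2 K a X Y := by
      unfold A2
      rw [ptiv_congr hcx, ptiv_congr hcy]
    have e4 : A4 K a (2 ^ k * r) (2 ^ k * s) = A4 K a X Y := by
      unfold A4
      rw [ptiv_congr hcx, ptiv_congr hcy]
    rw [e3] at h2
    rw [e4] at h3
    have h5 : √(A4 k a (2 ^ k * r) (2 ^ k * s)) ≤ 2 * (Λ * √(A4 K a X Y)) := by
      refine (Real.sqrt_le_sqrt h3).trans ?_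
      have h6 : 4 * (Λ * A4 K a X Y) ≤ (2 * (Λ * √(A4 K a X Y))) ^ 2 := by
        have h7 : (2 * (Λ * √(A4 K a X Y))) ^ 2 = 4 * (Λ ^ 2 * √(A4 K a X Y) ^ 2) := by ring
        rw [h7, Real.sq_sqrt hA4]
        have h8 : Λ ≤ Λ ^ 2 := by nlinarith
        nlinarith [mul_le_mul_of_nonneg_right h8 hA4]
      exact (Real.sqrt_le_sqrt h6).trans (le_of_eq (Real.sqrt_sq (by positivity)))
    calc 3 * M * (n2 (iv k r ×ˢ iv k s) (vn fun l p => u p.1 p.2 l) ^ 2 *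
          n4 (iv k r ×ˢ iv k s) (vn fun l p => u p.1 p.2 l) ^ 2)
        ≤ 3 * M * ((4 * (Λ * A2 K a X Y)) * (2 * (Λ * √(A4 K a X Y)))) := by
          refine mul_le_mul_of_nonneg_left ?_ (by positivity)
          exact mul_le_mul (h6.trans h2) (h7.trans h5) (sq_nonneg _) (by positivity)
      _ = 24 * Λ ^ 2 * M * (A2 K a X Y * √(A4 K a X Y)) := by ring

/-- **The slot `b` as a family** (Gram matrix in the second variable). -/
theorem famK_b [DecidableEq κ] {n : ℕ} {e cP M : ℝ} {F : ℕ → Pt → ℝ} {Q : ℕ → Pt → Prop}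
    (hΛ : 1 ≤ Λ) (he : 0 ≤ e) (hcP : 0 ≤ cP) (hM : 0 ≤ M) (h : BSl n e cP F Q) (hMo : Mo4 n M F)
    (hK : K ≤ n) {a : ℤ × ℤ → ℝ} {u : ℤ → ℤ → κ → ℝ} {x1 x2 : ℤ}
    (ha : ∀ x ∈ iv K (ix K x1), ∀ y ∈ iv K (ix K x2),
      0 ≤ a (x, y) ∧ u x y ⬝ᵥ u x y ≤ a (x, y) ^ 2) (t : ℤ) :
    FamK K (ix K x1) (ix K x2) (iv K t) (fun x0 => Qth Λ a K Q x0)
      (fun x0 => fb u (kF Λ a K F) x0) (cP + 2)
      (24 * Λ ^ 2 * (cP + 2) * M * (A2 K a x1 x2 * √(A4 K a x1 x2)) * 8 ^ K)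
      (4 * Λ * (cP + 2) * e * A2 K a x1 x2 * 8 ^ K) := by
  have hC := famK_C hΛ he hcP h hK ha t
  have hA2 : 0 ≤ A2 K a x1 x2 := PL.H315.A2_nonneg _ _ _ _
  refine ⟨hC.path, hC.zero, hC.pack, ?_, hC.pow⟩
  have hroot : ∀ (f : ℕ → ℤ → ℤ → ℝ) (P : ℕ → ℤ → ℤ → Prop) (R S : ℤ), ∑ k ∈ range K,
      ∑ m ∈ iv (K - k) S, ∑ r ∈ iv (K - k) R, (if P k r m then f k r m else 0) =
      ∑ k ∈ range K, ∑ m ∈ iv (K - k) S, ∑ r ∈ iv (K - k) R,
        (if P k r m then (if ix (K - k) r = R ∧ ix (K - k) m = S then f k r m else 0) else 0) := by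
    intro f P R S
    refine sum_congr rfl fun k _ => sum_congr rfl fun m hm => sum_congr rfl fun r hr => ?_
    rw [if_pos (show ix (K - k) r = R ∧ ix (K - k) m = S from ⟨mem_iv.1 hr, mem_iv.1 hm⟩)]
  have e1 : ∀ x0 ∈ iv K t, ownK K (ix K x1) (ix K x2) (Qth Λ a K Q x0)
      (fb u (kF Λ a K F) x0) =
        ∑ k ∈ range K, ∑ m ∈ iv (K - k) (ix K x2), ∑ r ∈ iv (K - k) (ix K x1),
          (if Qcb Λ a K Q k (ix k x0, r, m) then
            (if ix (K - k) r = ix K x1 ∧ ix (K - k) m = ix K x2 then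
              4 ^ k * (GQ k (fun x y => fC u (kF Λ a K F) x0 (k + 1) y x) r m *
                GQ k (fun x y => fC u (kF Λ a K F) x0 (k + 1) y x) r m).trace else 0) else 0) := by
    intro x0 _
    unfold ownK
    rw [sum_Aff, hroot (fun k r m => 4 ^ k * (GQ k (fb u (kF Λ a K F) x0 (k + 1)) r m *
      GQ k (fb u (kF Λ a K F) x0 (k + 1)) r m).trace)]
    rfl
  rw [sum_congr rfl e1]
  have h1 := slice_sum (K := K) (t0 := t) (R := ix K x1) (S := ix K x2) (c := cP + 2)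
    (μ := 24 * Λ ^ 2 * M * (A2 K a x1 x2 * √(A4 K a x1 x2))) (Q := Qcb Λ a K Q)
    (T := fun x0 k r m => if ix (K - k) r = ix K x1 ∧ ix (K - k) m = ix K x2 then
            4 ^ k * (GQ k (fun x y => fC u (kF Λ a K F) x0 (k + 1) y x) r m *
              GQ k (fun x y => fC u (kF Λ a K F) x0 (k + 1) y x) r m).trace else 0)
    (by positivity)
    (by
      intro k hk q0 r m
      by_cases hh : ix (K - k) r = ix K x1 ∧ ix (K - k) m = ix K x2
      · simp only [if_pos hh]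
        rw [← mul_sum]
        have h2 := trb_block hΛ hM hMo hK hk q0 r m hh.1 hh.2 (u := u)
          fun x hx y hy => (ha x hx y hy).2
        have h8 : (8 : ℝ) ^ k = 4 ^ k * 2 ^ k := by rw [← mul_pow]; norm_num
        rw [h8, mul_assoc]
        exact mul_le_mul_of_nonneg_left h2 (by positivity)
      · simp only [if_neg hh, sum_const_zero]
        positivity)
    (fun x0 => root_pack h a hK (ix K x1) (ix K x2) x0)
  refine h1.trans (le_of_eq ?_)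
  ring

/-! ### Class data, uniform slots -/

variable {n : ℕ} {tt e cP s r P : ℝ} {U : PL.H315.Tri} {g : ℤ → ℤ → ℝ} {u v : ℤ → ℤ → κ → ℝ}
  {x : Pt}

/-- **The slot `A` of class data**: `GA = 1920000 Λ² (cP + 2) tt² e s^(3/2)`. -/
theorem fam0_Cls {F1 : ℕ → Pt → ℝ} {Q : ℕ → Pt → Prop} (hΛ : 1 ≤ Λ) (hcP : 0 ≤ cP)
    (hF : US n tt e cP F1) (hQ : BSl n e cP F1 Q) (hK : K ≤ n)
    (hc : H305.Cls K x s r P U g u v) (t : ℤ) :
    Fam0 K (cx K x).2.2 (cx K x).2.1 (iv K t) (fun x0 k i j => Qth Λ U.2.2 K Q x0 k j i)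
      (fun x0 => fA (fun q => g q.1 q.2) (kF Λ U.2.2 K F1) x0) (cP + 2)
      (1920000 * Λ ^ 2 * (cP + 2) * (tt ^ 2 * e) * (s * √s) * 8 ^ K)
      (4 * Λ * (cP + 2) * e * s * 8 ^ K) := by
  have he : 0 ≤ e := (sq_nonneg _).trans hF.2.1
  have hg : (fun q : ℤ × ℤ => g q.1 q.2) = U.2.2 := funext fun q => (hc.U_g q).symm
  have h1 := fam0_A hΛ he hcP (by positivity) hQ (H206.mo4_of_un hF.1 he hQ hF.2.2.1) hK U.2.2
    x.2.1 x.2.2 t
  have h0 : 0 ≤ A2 K U.2.2 x.2.1 x.2.2 := PL.H315.A2_nonneg _ _ _ _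
  have h4 : A4 K U.2.2 x.2.1 x.2.2 ≤ A2 K U.2.2 x.2.1 x.2.2 := by
    refine A4_le_A2 fun p hp => ?_
    rw [mem_product] at hp
    rw [hc.U_g p, ← sq_abs]
    have h5 := hc.g_le p.1 hp.1 p.2 hp.2
    exact pow_le_one₀ (abs_nonneg _) h5
  have h6 : A2 K U.2.2 x.2.1 x.2.2 * √(A4 K U.2.2 x.2.1 x.2.2) ≤ s * √s :=
    mul_le_mul hc.U_g2 (Real.sqrt_le_sqrt (h4.trans hc.U_g2)) (Real.sqrt_nonneg _)
      (h0.trans hc.U_g2)
  rw [hg]
  exact {
    path := h1.path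
    zero := h1.zero
    pack := h1.pack
    own := h1.own.trans (by
      have e9 : 1920000 * Λ ^ 2 * (cP + 2) * (tt ^ 2 * e) * (s * √s) * 8 ^ K =
          8 * Λ ^ 2 * (cP + 2) * (240000 * (tt ^ 2 * e)) * (s * √s) * 8 ^ K := by ring
      rw [e9]
      gcongr)
    pow := h1.pow.trans (by
      have := hc.U_g2
      gcongr) }

/-- **The slot `b` of class data**: `GB = 5760000 Λ² (cP + 2) tt² e s^(3/2)`. -/
theorem famK_bCls [DecidableEq κ] {F3 : ℕ → Pt → ℝ} {Q : ℕ → Pt → Prop} (hΛ : 1 ≤ Λ)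
    (hcP : 0 ≤ cP) (hF : US n tt e cP F3) (hQ : BSl n e cP F3 Q) (hK : K ≤ n)
    (hc : H305.Cls K x s r P U g u v) (t : ℤ) :
    FamK K (cx K x).1 (cx K x).2.1 (iv K t) (fun x0 => Qth Λ U.1 K Q x0)
      (fun x0 => fb u (kF Λ U.1 K F3) x0) (cP + 2)
      (5760000 * Λ ^ 2 * (cP + 2) * (tt ^ 2 * e) * (s * √s) * 8 ^ K)
      (4 * Λ * (cP + 2) * e * s * 8 ^ K) := by
  have he : 0 ≤ e := (sq_nonneg _).trans hF.2.1
  have h1 := famK_b hΛ he hcP (by positivity) hQ (H206.mo4_of_un hF.1 he hQ hF.2.2.1) hK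
    (a := U.1) (u := u) (x1 := x.1) (x2 := x.2.1) (fun w hw y hy => by
      rw [← H769.iv_pt] at hw hy
      exact ⟨(hc.U_u w hw y hy).1, hc.u_le w hw y hy⟩) t
  have h0 : 0 ≤ A2 K U.1 x.1 x.2.1 := PL.H315.A2_nonneg _ _ _ _
  have h4 : A4 K U.1 x.1 x.2.1 ≤ A2 K U.1 x.1 x.2.1 := by
    refine A4_le_A2 fun p hp => ?_
    rw [mem_product] at hp
    have h5 := hc.U_u p.1 hp.1 p.2 hp.2
    exact pow_le_one₀ h5.1 h5.2
  have h6 : A2 K U.1 x.1 x.2.1 * √(A4 K U.1 x.1 x.2.1) ≤ s * √s :=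
    mul_le_mul hc.U_u2 (Real.sqrt_le_sqrt (h4.trans hc.U_u2)) (Real.sqrt_nonneg _)
      (h0.trans hc.U_u2)
  exact {
    path := h1.path
    zero := h1.zero
    pack := h1.pack
    own := h1.own.trans (by
      have e9 : 5760000 * Λ ^ 2 * (cP + 2) * (tt ^ 2 * e) * (s * √s) * 8 ^ K =
          24 * Λ ^ 2 * (cP + 2) * (240000 * (tt ^ 2 * e)) * (s * √s) * 8 ^ K := by ring
      rw [e9]
      gcongr)
    pow := h1.pow.trans (by
      have := hc.U_u2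
      gcongr) }

end

end Vale.Agent.P141.H508
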