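import Vale.Agent.P141.H508.SelD
import Vale.Agent.P141.H401.DvS
import Vale.Agent.P141.H508.OwnAB
import Vale.Agent.P141.H451.SwapE
import Vale.Agent.P141.H475.OwnD
import Vale.Agent.P141.H593.HPnum

/-!
# P141, line (A): the price of the dense fibres

`hst0 : HSt0 DvM` : the part of `v` on the dense fibres is not split; own energies of `A` and of
the slot `C`, square energy of `b`.
-/

namespace Vale.Agent.P141.H508

open Finset Matrix
open Vale.Agent.P141.PL (Pt iv ix mem_iv ix_ix cx)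
open Vale.Agent.P141.PL.H315 (A2 avg Tri)
open Vale.Agent.P141.H48 (sst US ES BSl)
open Vale.Agent.P141.H401 (Sel lo hi PartY PartQ HSt0 NS mA mb mC)
open Vale.Agent.P141.H305 (ClsM Cls kapM)
open Vale.Agent.P141.H498 (prf plog)
open Vale.Agent.P141.H677 (nf3 rt)

noncomputable section

open scoped Classical

/-- `prf` is homogeneous in the second family -/
theorem prf_scale {gA gB gC dA dB dC z : ℝ} (hz : 0 < z) (hB : 0 ≤ gB) :
    prf gA (z ^ 2 * gB) gC dA (z * dB) dC = √z * prf gA gB gC dA dB dC := by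
  unfold H498.prf
  have e1 : (z * dB) ^ 2 / (z ^ 2 * gB) = dB ^ 2 / gB := by
    rw [mul_pow, mul_div_mul_left _ _ (by positivity)]
  have e2 : (z ^ 2 * gB) ^ (1 / 4 : ℝ) = √z * gB ^ (1 / 4 : ℝ) := by
    rw [Real.mul_rpow (by positivity) hB, ← Real.rpow_natCast, ← Real.rpow_mul hz.le,
      Real.sqrt_eq_rpow]
    norm_num
  rw [e1, e2]
  ring

/-- the columns of the set are small -/
def ColV (Dv : Sel) : Prop :=
  ∀ (ι : Type) [Fintype ι] [DecidableEq ι] (p : H401.Num) (K : ℕ) (x : Pt) (s r P κ : ℝ) (U : Tri)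
    (g : ℤ → ℤ → ℝ) (u v : ℤ → ℤ → ι → ℝ), 1 ≤ p.L → 0 < p.t → p.t ≤ 1 → 0 ≤ p.d → 0 < s → 1 ≤ r →
    ClsM K x s r P κ U g u v → ∀ j ≤ K, ∀ z ∈ iv K (ix K x.1), ∀ y ∈ iv K (ix K x.2.2),
      ¬ sst p.Lm U.2.1 K j z y →
      ∑ z' ∈ iv j (ix j z), (if Dv ι p K x s r U v z' y then (1 : ℝ) else 0) ≤
        4 * p.Lm * √s * (p.t / r) ^ 8 * 2 ^ j

theorem colV_M : ColV DvM := fun _ _ _ _ _ _ _ _ _ _ _ _ _ _ hL ht _ _ hs hr h =>
  col_DvM hL ht hs hr h.toCls

theorem colV_S : ColV H401.DvS := by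
  intro ι _ _ p K x s r P κ U g u v _ ht ht1 hd hs hr h j hj z hz y hy hn
  refine (H401.col_DvS ht ht1 hd hs hr h j hj z hz y hy hn).trans (le_of_eq ?_)
  have hr0 : 0 < r := by linarith
  rw [H401.col_num ht hs hr]
  have e1 : p.t ^ (8 - p.d) = p.Lm * p.t ^ 8 := by
    unfold H401.Num.Lm
    rw [← Real.rpow_natCast, ← Real.rpow_add ht]
    congr 1
    push_cast
    ring
  have e2 : r ^ (-8 : ℝ) = (r ^ 8)⁻¹ := by
    rw [Real.rpow_neg hr0.le]
    congr 1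
    rw [← Real.rpow_natCast]
    norm_num
  rw [e1, e2, div_pow]
  ring

/-- **The price of a set with small columns.** -/
theorem hst0_of {Dv : Sel} (hcol : ColV Dv) : HSt0 Dv := by
  intro a _ _
  refine ⟨1, one_pos, fun e0 _ _ => ⟨1, one_pos, fun k8 _ _ => ⟨1, one_pos, fun k3 _ _ => ?_⟩⟩⟩
  refine ⟨1, 1 / 4, 1 / 4, 1, one_pos, by norm_num, by norm_num, one_pos, ?_⟩
  intro c hc hcc d hd hdd Kt e cP L hK he hcP hL
  -- the numbers
  have hnum := H593.hp_price (pA := -(2 * c + 2 * d)) (pB := 6 - 2 * d) (qA := 0) (qB := 8)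
    (wA := d) (wC := d) (wG := -(2 - 2 * c - 2 * d)) (θ := 1) (gam := 1) (del := 1) one_pos le_rfl
    (by linarith) (by linarith) (by norm_num)
    (CA := 1920000 * (cP + 2) * (Kt ^ 2 * e)) (CB := 32 * (cP + 2)) (cA := 4 * (cP + 2) * e)
    (cC := 4 * (cP + 2) * e) (cG := 5760000 * (cP + 2) * (Kt ^ 2 * e)) (by positivity)
    (by positivity) (by positivity) (by positivity) (by positivity) (cP := cP + 2) (by linarith)
  obtain ⟨C, hC, hnum⟩ := hnum
  refine ⟨1, le_rfl, C, hC, ?_⟩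
  intro t ht ht1 n ez F1 F2 F3 h1 h3 h2 o ho K hKn x ι _ _ s r U g u v hs hr hcls Q1 Q2 Q3 q1 q2 q3
  set p : H401.Num := ⟨a, e0, k8, k3, c, d, Kt, e, cP, L, 1, t⟩ with hp
  have hLm : 1 ≤ p.Lm := H401.Num.Lm_ge (p := p) ht ht1 hd.le
  have hr0 : 0 < r := by linarith
  have hcl : Cls K x s r (L * t ^ (2 - c) * √s) U g u v := hcls.toCls
  have hez : 0 ≤ ez := h2.1
  have hss : 0 < √s := Real.sqrt_pos.2 hs
  have hdel : 0 ≤ 4 * p.Lm * √s * (t / r) ^ 8 := by positivity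
  -- letters
  have eT : t ^ (-d) = p.Lm := rfl
  have esr : s ^ (3 / 2 : ℝ) = s * √s := by
    rw [Real.sqrt_eq_rpow, ← Real.rpow_one_add' hs.le (by norm_num)]
    norm_num
  have eA : 1920000 * (cP + 2) * (Kt ^ 2 * e) * (t ^ (2 + -(2 * c + 2 * d)) * s ^ (3 / 2 : ℝ) *
      r ^ (-(0 : ℝ)) * 8 ^ K) =
      1920000 * p.Lm ^ 2 * (cP + 2) * ((Kt * t ^ (1 - c)) ^ 2 * e) * (s * √s) * 8 ^ K := by
    have e1 : t ^ (2 + -(2 * c + 2 * d)) = p.Lm ^ 2 * (t ^ (1 - c)) ^ 2 := by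
      rw [← eT, ← Real.rpow_natCast (t ^ (-d)), ← Real.rpow_natCast (t ^ (1 - c)),
        ← Real.rpow_mul ht.le, ← Real.rpow_mul ht.le, ← Real.rpow_add ht]
      congr 1
      push_cast
      ring
    rw [e1, neg_zero, Real.rpow_zero, esr]
    ring
  have eG : 5760000 * (cP + 2) * (Kt ^ 2 * e) * ((1 : ℝ) ^ 2 * t ^ (-(-(2 - 2 * c - 2 * d))) *
      s ^ (3 / 2 : ℝ) * 8 ^ K) =
      5760000 * p.Lm ^ 2 * (cP + 2) * ((Kt * t ^ (1 - c)) ^ 2 * e) * (s * √s) * 8 ^ K := by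
    have e1 : t ^ (-(-(2 - 2 * c - 2 * d))) = p.Lm ^ 2 * (t ^ (1 - c)) ^ 2 := by
      rw [← eT, ← Real.rpow_natCast (t ^ (-d)), ← Real.rpow_natCast (t ^ (1 - c)),
        ← Real.rpow_mul ht.le, ← Real.rpow_mul ht.le, ← Real.rpow_add ht]
      congr 1
      push_cast
      ring
    rw [e1, esr]
    ring
  have eD : 4 * (cP + 2) * e * (t ^ (-d) * s * 8 ^ K) = 4 * p.Lm * (cP + 2) * e * s * 8 ^ K := by
    rw [eT]
    ring
  have eD' : 4 * (cP + 2) * e * (1 * t ^ (-d) * s * 8 ^ K) =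
      4 * p.Lm * (cP + 2) * e * s * 8 ^ K := by
    rw [eT]
    ring
  have eB : 32 * (cP + 2) * (t ^ (2 + (6 - 2 * d)) * s ^ (3 / 2 : ℝ) * r ^ (-(8 : ℝ)) * 8 ^ K) =
      8 * p.Lm * (cP + 2) * (4 * p.Lm * √s * (t / r) ^ 8) * s * 8 ^ K := by
    have e1 : t ^ (2 + (6 - 2 * d)) = p.Lm ^ 2 * t ^ 8 := by
      rw [← eT, ← Real.rpow_natCast (t ^ (-d)), ← Real.rpow_natCast t 8,
        ← Real.rpow_mul ht.le, ← Real.rpow_add ht]
      congr 1
      push_cast
      ring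
    have e2 : r ^ (-(8 : ℝ)) = (r ^ 8)⁻¹ := by
      rw [Real.rpow_neg hr0.le]
      congr 1
      rw [← Real.rpow_natCast]
      norm_num
    rw [e1, e2, esr, div_pow]
    ring
  -- the case `0 < ez`
  have key : ∀ ez' : ℝ, ez < ez' → NS o (p.al U K) K x (fun x0 k m =>
      |nf3 (mA p U K g F1 x0 k) (mb p U K u F3 x0 k)
        (mC p U K (hi (Dv ι p K x s r U v) v) F2 x0 k) k m|) ≤
      (C * (t ^ (1 + (1 : ℝ)) * s ^ (5 / 4 : ℝ) * 8 ^ K) * r ^ (-(1 : ℝ))) * √ez' := by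
    intro z hz
    have hz0 : 0 < z := hez.trans_lt hz
    obtain ⟨Q, hQ⟩ := H475.famK_DCls (D := Dv ι p K x s r U v)
      (vD := hi (Dv ι p K x s r U v) v) hLm hcP (H593.ES_mono h2 hz.le) hKn hcl hdel
      (fun w _ y _ => by
        unfold H401.hi
        split_ifs
        · exact le_rfl
        · rw [zero_dotProduct]
          exact sum_nonneg fun _ _ => mul_self_nonneg _)
      (fun w _ y _ hn => by
        unfold H401.hi
        rw [if_neg hn])
      (fun j hj w hw y hy hn => by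
        refine hcol ι p K x s r _ _ U g u v hL ht ht1 hd.le hs hr hcls j hj w ?_ y ?_ hn
        · rw [H769.iv_pt] at hw
          exact hw
        · rw [H769.iv_pt] at hy
          exact hy)
    have hNS := H451.NS_nf3_le_b (Al := p.al U K) (K := K) (x := x) (κ := ι) ho
      (A := mA p U K g F1) (b := mb p U K u F3) (C := mC p U K (hi (Dv ι p K x s r U v) v) F2)
      (cP := cP + 2)
      (GA := 1920000 * p.Lm ^ 2 * (cP + 2) * ((Kt * t ^ (1 - c)) ^ 2 * e) * (s * √s) * 8 ^ K)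
      (GB := 5760000 * p.Lm ^ 2 * (cP + 2) * ((Kt * t ^ (1 - c)) ^ 2 * e) * (s * √s) * 8 ^ K)
      (GC := 8 * p.Lm * (cP + 2) * (4 * p.Lm * √s * (t / r) ^ 8) * z ^ 2 * s * 8 ^ K)
      (DA := 4 * p.Lm * (cP + 2) * e * s * 8 ^ K) (DB := 4 * p.Lm * (cP + 2) * e * s * 8 ^ K)
      (DC := 4 * p.Lm * (cP + 2) * z * s * 8 ^ K) (by linarith) (by positivity) (by positivity)
      (by positivity) (by positivity) (by positivity) (by positivity)
      (fun w _ => fam0_Cls hLm hcP h1 q1 hKn hcl w)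
      (fun w _ => famK_bCls hLm hcP h3 q3 hKn hcl w)
      (fun w _ => hQ w)
    have hm := hnum t ht ht1 s r 1 hs hr one_pos K (4 * p.Lm * (cP + 2) * s * 8 ^ K)
      (by positivity)
    rw [eA, eG, eD, eD', eB, Real.sqrt_one, mul_one] at hm
    have e5 : 8 * p.Lm * (cP + 2) * (4 * p.Lm * √s * (t / r) ^ 8) * z ^ 2 * s * 8 ^ K =
        z ^ 2 * (8 * p.Lm * (cP + 2) * (4 * p.Lm * √s * (t / r) ^ 8) * s * 8 ^ K) := by ring
    have e6 : 4 * p.Lm * (cP + 2) * z * s * 8 ^ K = z * (4 * p.Lm * (cP + 2) * s * 8 ^ K) := by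
      ring
    rw [e5, e6, prf_scale hz0 (by positivity)] at hNS
    refine hNS.trans ?_
    have h9 := mul_le_mul_of_nonneg_left hm (Real.sqrt_nonneg z)
    refine le_trans (le_of_eq ?_) (h9.trans (le_of_eq ?_))
    · ring
    · ring
  refine (H593.lim_ez key).trans (le_of_eq ?_)
  ring

/-- **The price of the dense fibres.** -/
theorem hst0 : HSt0 DvM := hst0_of colV_M

/-- **The price of the dense fibres**, the set of `H401.DvS`. -/
theorem hst0S : HSt0 H401.DvS := hst0_of colV_S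

end

end Vale.Agent.P141.H508
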