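import Vale.Agent.P141.H508.HSt0
import Vale.Agent.P141.H74.HSt3

/-!
# P141, line (A): the price of the dense fibres of `u`

* `DuS : Sel` : the dense fibres of `u` (edge `U.1`), level `lam1`; `DuS_CD`;
* `fib_DuS` : fibres of `lo (DuS ..) u` over the cells which are not stopped; `col_DuS` : columns;
* `ClsM_loU` : class data with `u` cut at any set;
* `hst00_of`, `hst00S` : the part of `b` on the set is not split.
-/

namespace Vale.Agent.P141.H508

open Finset Matrix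
open Vale.Agent.P141.PL (Pt iv ix mem_iv ix_ix cx)
open Vale.Agent.P141.PL.H315 (A2 avg Tri)
open Vale.Agent.P141.H48 (sst US ES BSl)
open Vale.Agent.P141.H401 (Sel lo hi PartY PartQ HSt0 NS mA mb mC)
open Vale.Agent.P141.H305 (ClsM Cls kapM)
open Vale.Agent.P141.H677 (nf3 rt)
open Vale.Agent.P141.H677.Sk (lam1)

noncomputable section

open scoped Classical

set_option linter.unusedSectionVars false

/-- **The dense fibres of `u`**, level `lam1 = t ^ (-8) √s r ^ 8`. -/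
def DuS : Sel := fun _ι _ _ p K _x s r U u z y => H444.FD.Dv p.Lm U.1 K (lam1 p s r) u z y

theorem DuS_CD (ι : Type) [Fintype ι] [DecidableEq ι] (p : H401.Num) (CD : ℝ) (K : ℕ) (x : Pt)
    (s r : ℝ) (U : Tri) (u : ℤ → ℤ → ι → ℝ) :
    DuS ι { p with CD := CD } K x s r U u = DuS ι p K x s r U u := rfl

variable {ι : Type} [Fintype ι] [DecidableEq ι]

/-- **Class data with `u` cut at a set are again class data.** -/
theorem ClsM_loU {K : ℕ} {x : Pt} {s r P κ : ℝ} {U : Tri} {g : ℤ → ℤ → ℝ} {u v : ℤ → ℤ → ι → ℝ}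
    (D : ℤ → ℤ → Prop) (h : ClsM K x s r P κ U g u v) : ClsM K x s r P κ U g (lo D u) v where
  U_g := h.U_g
  g_le := h.g_le
  U_u := h.U_u
  U_v := h.U_v
  u_le := fun z hz y hy => (H401.lo_self D u z y).trans (h.u_le z hz y hy)
  v_le := h.v_le
  U_u2 := h.U_u2
  U_v2 := h.U_v2
  U_g2 := h.U_g2
  g_row := h.g_row
  u_col := fun y hy => (H401.avg_mono' fun z _ => H401.lo_self D u z y).trans (h.u_col y hy)
  u_row := fun z hz => (H401.avg_mono' fun y _ => H401.lo_self D u z y).trans (h.u_row z hz)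
  u_pot := fun z hz w => (H401.avg_mono' fun y _ => H401.lo_dot_sq D u z y w).trans (h.u_pot z hz w)
  v_pot := h.v_pot
  act := fun z hz => (h.act z hz).imp id fun h1 => ⟨fun y => by
    unfold lo
    split_ifs
    · rfl
    · exact h1.1 y, h1.2⟩
  r_le := h.r_le

/-- **The fibres of `u` off the set.** -/
theorem fib_DuS {p : H401.Num} {K : ℕ} {x : Pt} {s r P κ : ℝ} {U : Tri} {g : ℤ → ℤ → ℝ}
    {u v : ℤ → ℤ → ι → ℝ} (ht : 0 < p.t) (ht1 : p.t ≤ 1) (hd0 : 0 ≤ p.d) (hd : p.d ≤ 8)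
    (hs : 0 < s) (hr : 1 ≤ r) (h : ClsM K x s r P κ U g u v) :
    ∀ k ≤ K, ∀ x1 ∈ iv K (ix K x.1), ∀ x2 ∈ iv K (ix K x.2.1), ¬ sst p.Lm U.1 K k x1 x2 →
      ∑ y ∈ iv k (ix k x2), lo (DuS ι p K x s r U u) u x1 y ⬝ᵥ lo (DuS ι p K x s r U u) u x1 y ≤
        lam1 p s r * 2 ^ k := by
  intro k hk x1 hx1 x2 hx2 hst
  have hL : 0 ≤ p.Lm := by linarith [H401.Num.Lm_ge ht ht1 hd0]
  have h1 := H444.FD.fib (K := K) (P := sst p.Lm U.1 K) (lam := lam1 p s r)
    (M := min 1 (p.Lm * s)) (f := fun z y => u z y ⬝ᵥ u z y) (H444.FD.stP_sst p.Lm U.1 K)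
    (R := ix K x.1) (S := ix K x.2.1) (fun z y => H444.FD.dot_nn _) ?_
    (H401.lam1_ge ht ht1 hd hs hr) (H401.lam1_pos ht hs hr).le k hk x1 hx1 x2 hx2 hst
  · refine (sum_congr rfl fun y _ => ?_).trans_le h1
    exact H401.lo_DvS _ u x1 y
  · intro z hz y hy h0
    refine le_min ?_ ?_
    · have h2 := h.U_u z hz y hy
      have h3 := h.u_le z hz y hy
      nlinarith
    · have h2 := H444.FD.mass_sst (R := ix K x.1) (S := ix K x.2.1) (s := s) hL
        (fun z hz y hy => h.u_le z hz y hy) ?_ (Nat.zero_le K) hz hy h0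
      · have e1 : ∀ c : ℤ, iv 0 (ix 0 c) = {c} := by
          intro c
          ext w
          rw [mem_iv, mem_singleton]
          unfold PL.ix
          simp
        rw [e1, e1, sum_singleton, sum_singleton, pow_zero, mul_one] at h2
        exact h2
      · intro z hz y hy
        refine (le_of_eq ?_).trans h.U_u2
        exact H48.A2_congr' (k := K) U.1 (mem_iv.1 hz) (mem_iv.1 hy)

/-- the columns of the set are small, edge `U.1` -/
def ColU (Du : Sel) : Prop :=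
  ∀ (ι : Type) [Fintype ι] [DecidableEq ι] (p : H401.Num) (K : ℕ) (x : Pt) (s r P κ : ℝ) (U : Tri)
    (g : ℤ → ℤ → ℝ) (u v : ℤ → ℤ → ι → ℝ), 1 ≤ p.L → 0 < p.t → p.t ≤ 1 → 0 ≤ p.d → 0 < s → 1 ≤ r →
    ClsM K x s r P κ U g u v → ∀ j ≤ K, ∀ z ∈ iv K (ix K x.1), ∀ y ∈ iv K (ix K x.2.1),
      ¬ sst p.Lm U.1 K j z y →
      ∑ z' ∈ iv j (ix j z), (if Du ι p K x s r U u z' y then (1 : ℝ) else 0) ≤
        4 * p.Lm * √s * (p.t / r) ^ 8 * 2 ^ j

/-- **The columns of the set** on the alive squares. -/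
theorem col_DuS : ColU DuS := by
  intro ι _ _ p K x s r P κ U g u v _ ht ht1 hd hs hr h j hj z hz y hy hn
  have hL : 0 ≤ p.Lm := by linarith [H401.Num.Lm_ge ht ht1 hd]
  have h1 := H444.FD.col_sst (v := u) hL hs.le (H401.lam1_pos (p := p) ht hs hr)
    (R := ix K x.1) (S := ix K x.2.1) (a := U.1)
    (fun z hz y hy => h.u_le z hz y hy) (fun z hz y hy => by
      refine (le_of_eq ?_).trans h.U_u2
      exact H48.A2_congr' (k := K) U.1 (mem_iv.1 hz) (mem_iv.1 hy)) j hj z hz y hy hn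
  refine h1.trans (le_of_eq ?_)
  have hr0 : 0 < r := by linarith
  rw [H401.col_num ht hs hr]
  have e1 : p.t ^ (8 - p.d) = p.Lm * p.t ^ 8 := by
    unfold H401.Num.Lm
    rw [← Real.rpow_natCast, ← Real.rpow_add ht]
    congr 1
    push_cast
    ring
  have e2 : r ^ (-8 : ℝ) = (r ^ 8)⁻¹ := by
    rw [Real.rpow_neg hr0.le]
    congr 1
    rw [← Real.rpow_natCast]
    norm_num
  rw [e1, e2, div_pow]
  ring

/-- **The price of the part of `b` on a set with small columns.** -/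
theorem hst00_of {Du : Sel} (hcol : ColU Du) :
    PartQ fun ι _ _ p _n _ez F1 F2 F3 o K x s r U g u v _Q1 _Q2 _Q3 B =>
      NS o (p.al U K) K x (fun x0 k m =>
        |nf3 (mA p U K g F1 x0 k) (mb p U K (hi (Du ι p K x s r U u) u) F3 x0 k)
          (mC p U K v F2 x0 k) k m|) ≤ B := by
  intro a _ _
  refine ⟨1, one_pos, fun e0 _ _ => ⟨1, one_pos, fun k8 _ _ => ⟨1, one_pos, fun k3 _ _ => ?_⟩⟩⟩
  refine ⟨1 / 2, 1 / 4, 1 / 4, 1, by norm_num, by norm_num, by norm_num, one_pos, ?_⟩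
  intro c hc hcc d hd hdd Kt e cP L hKt he hcP hL
  obtain ⟨C, hC, H⟩ := H74.price (pA := -(2 * c + 2 * d)) (pB := 6 - 2 * d) (qA := 0) (qB := 8)
    (wA := d) (d := d) (θ := 1 / 8) (gam := 1 / 2) (del := 1) (by norm_num) le_rfl hd.le
    (by linarith) (by linarith) (by norm_num) (CA := 1920000 * (cP + 2) * (Kt ^ 2 * e))
    (CB := 32 * (cP + 2) * e ^ 2) (cA := 4 * (cP + 2) * e) (by positivity) (by positivity)
    (by positivity) hcP
  refine ⟨1, le_rfl, C, hC, ?_⟩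
  intro t ht ht1 n ez F1 F2 F3 f1 f3 f2 o ho K hKn x ι _ _ s r U g u v hs hr hcls Q1 Q2 Q3 q1 q2 q3
  set p : H401.Num := ⟨a, e0, k8, k3, c, d, Kt, e, cP, L, 1, t⟩ with hp
  have hLm : 1 ≤ p.Lm := H401.Num.Lm_ge (p := p) ht ht1 hd.le
  have hr0 : 0 < r := by linarith
  have hcl : Cls K x s r (L * t ^ (2 - c) * √s) U g u v := hcls.toCls
  have hdel : 0 ≤ 4 * p.Lm * √s * (t / r) ^ 8 := by positivity
  have hA2 : 0 ≤ A2 K U.1 x.1 x.2.1 := PL.H315.A2_nonneg _ _ _ _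
  have esr : s ^ (3 / 2 : ℝ) = s * √s := (H74.s_sqrt hs).symm
  have e8 : t ^ (2 + (6 - 2 * d)) * r ^ (-(8 : ℝ)) = p.Lm ^ 2 * (t / r) ^ 8 := by
    have e1 : t ^ (2 + (6 - 2 * d)) = p.Lm ^ 2 * t ^ 8 := by
      have eT : t ^ (-d) = p.Lm := rfl
      rw [← eT, ← Real.rpow_natCast (t ^ (-d)), ← Real.rpow_natCast t 8,
        ← Real.rpow_mul ht.le, ← Real.rpow_add ht]
      congr 1
      push_cast
      ring
    have e2 : r ^ (-(8 : ℝ)) = (r ^ 8)⁻¹ := by
      rw [Real.rpow_neg hr0.le]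
      congr 1
      rw [← Real.rpow_natCast]
      norm_num
    rw [e1, e2, div_pow]
    ring
  refine H t ht ht1 n ez F2 f2 o ho K hKn x ι s r _ U g u v hs hr hcl (p.al U K)
    (mA p U K g F1) (mb p U K (hi (Du ι p K x s r U u) u) F3) _
    (fun x0 => H48.Qth p.Lm U.1 K Q3 x0) (4 * p.Lm * (cP + 2) * e * s * 8 ^ K) (by positivity)
    (fun t0 => H74.natA (L := L) (CD := 1) ht ht1 hd.le hcP f1 q1 hKn hs hcl t0) fun t0 => ?_
  have h1 := H475.famK_D (D := Du ι p K x s r U u) (v := hi (Du ι p K x s r U u) u) (a := U.1)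
    hLm (by linarith) hcP q3 hKn (x1 := x.1) (x3 := x.2.1) hdel
    (fun w hw y hy => ⟨(hcl.U_u w (by rw [H769.iv_pt]; exact hw) y
        (by rw [H769.iv_pt]; exact hy)).1, (hcl.U_u w (by rw [H769.iv_pt]; exact hw) y
        (by rw [H769.iv_pt]; exact hy)).2, (H401.hi_le _ u w y).trans
        (hcl.u_le w (by rw [H769.iv_pt]; exact hw) y (by rw [H769.iv_pt]; exact hy))⟩)
    (fun w _ y _ hn => H401.hi_zero _ u w y hn)
    (fun j hj w hw y hy hn => hcol ι p K x s r _ _ U g u v hL ht ht1 hd.le hs hr hcls j hj w hw y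
      hy hn) t0
  refine H74.famK_mono h1 le_rfl ?_ ?_
  · have h2 : 8 * p.Lm * (cP + 2) * (4 * p.Lm * √s * (t / r) ^ 8) * e ^ 2 * A2 K U.1 x.1 x.2.1 *
        8 ^ K ≤ 8 * p.Lm * (cP + 2) * (4 * p.Lm * √s * (t / r) ^ 8) * e ^ 2 * s * 8 ^ K := by
      have := hcl.U_u2
      gcongr
    refine h2.trans (le_of_eq ?_)
    have e9 : 32 * (cP + 2) * e ^ 2 * (t ^ (2 + (6 - 2 * d)) * s ^ (3 / 2 : ℝ) * r ^ (-(8 : ℝ)) *
        8 ^ K) = 32 * (cP + 2) * e ^ 2 * ((t ^ (2 + (6 - 2 * d)) * r ^ (-(8 : ℝ))) *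
        s ^ (3 / 2 : ℝ) * 8 ^ K) := by
      ring
    rw [e9, e8, esr]
    ring
  · have := hcl.U_u2
    gcongr

/-- **The price of the dense fibres of `u`.** -/
theorem hst00S :
    PartQ fun ι _ _ p _n _ez F1 F2 F3 o K x s r U g u v _Q1 _Q2 _Q3 B =>
      NS o (p.al U K) K x (fun x0 k m =>
        |nf3 (mA p U K g F1 x0 k) (mb p U K (hi (DuS ι p K x s r U u) u) F3 x0 k)
          (mC p U K v F2 x0 k) k m|) ≤ B := hst00_of col_DuS

end

end Vale.Agent.P141.H508
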