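import Vale.Agent.P141.H401.CutV
import Vale.Agent.P141.H444.FibD
import Vale.Agent.P141.H769.EN3

/-!
# P141, line (A): the selection of the dense fibres

`lamF p s r = L (r / t) ^ 8 √s`; `DvM : Sel` : 444's set `Dv` at this level.

* `DvM_CD` : it does not depend on `CD`;
* `fib_DvM` : fibres of `lo (DvM ..) v` over the cells which are not stopped;
* `col_DvM` : columns of `DvM` at most `4 Λ √s (t / r) ^ 8 / L`.
-/

namespace Vale.Agent.P141.H508

open Finset Matrix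
open Vale.Agent.P141.PL (Pt iv ix mem_iv ix_ix cx)
open Vale.Agent.P141.PL.H315 (A2 avg Tri)
open Vale.Agent.P141.H48 (sst)
open Vale.Agent.P141.H401 (Sel lo hi)
open Vale.Agent.P141.H305 (ClsM Cls)
open Vale.Agent.P141.H444.FD (Dv)

noncomputable section

open scoped Classical

set_option linter.unusedSectionVars false

/-- the level of the dense fibres -/
def lamF (p : H401.Num) (s r : ℝ) : ℝ := p.L * ((r / p.t) ^ 8 * √s)

/-- **The dense fibres of a class.** -/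
def DvM : Sel := fun _ _ _ p K _ s r U v => Dv p.Lm U.2.1 K (lamF p s r) v

theorem DvM_CD (ι : Type) [Fintype ι] [DecidableEq ι] (p : H401.Num) (CD : ℝ) (K : ℕ) (x : Pt)
    (s r : ℝ) (U : Tri) (v : ℤ → ℤ → ι → ℝ) :
    DvM ι { p with CD := CD } K x s r U v = DvM ι p K x s r U v := rfl

theorem lamF_pos {p : H401.Num} {s r : ℝ} (hL : 1 ≤ p.L) (ht : 0 < p.t) (hs : 0 < s) (hr : 1 ≤ r) :
    0 < lamF p s r :=
  mul_pos (by linarith) (mul_pos (pow_pos (div_pos (by linarith) ht) 8) (Real.sqrt_pos.2 hs))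

variable {ι : Type} [Fintype ι] [DecidableEq ι]

/-- the majorant of `v` has mass at most `min s 1` -/
theorem A2_root {K : ℕ} {x : Pt} {s r P : ℝ} {U : Tri} {g : ℤ → ℤ → ℝ} {u v : ℤ → ℤ → ι → ℝ}
    (h : Cls K x s r P U g u v) : ∀ z ∈ iv K (cx K x).1, ∀ y ∈ iv K (cx K x).2.2,
      A2 K U.2.1 z y ≤ s ∧ A2 K U.2.1 z y ≤ 1 := by
  intro z hz y hy
  have e : A2 K U.2.1 z y = A2 K U.2.1 x.1 x.2.2 := by
    unfold A2
    rw [H769.ptiv_congr (mem_iv.1 hz), H769.ptiv_congr (mem_iv.1 hy)]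
  rw [e]
  refine ⟨h.U_v2, ?_⟩
  have h1 : A2 K U.2.1 x.1 x.2.2 ≤ avg (PL.H315.iv K x.1 ×ˢ PL.H315.iv K x.2.2)
      fun _ => (1 : ℝ) := by
    unfold A2
    refine H550.avg_mono fun p hp => ?_
    rw [mem_product] at hp
    have h5 := h.U_v p.1 hp.1 p.2 hp.2
    exact pow_le_one₀ h5.1 h5.2
  refine h1.trans (le_of_eq ?_)
  refine H550.avg_const ?_ 1
  exact ⟨(x.1, x.2.2), mem_product.2 ⟨PL.H315.mem_iv.2 rfl, PL.H315.mem_iv.2 rfl⟩⟩

theorem v_root {K : ℕ} {x : Pt} {s r P : ℝ} {U : Tri} {g : ℤ → ℤ → ℝ} {u v : ℤ → ℤ → ι → ℝ}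
    (h : Cls K x s r P U g u v) : ∀ z ∈ iv K (cx K x).1, ∀ y ∈ iv K (cx K x).2.2,
      v z y ⬝ᵥ v z y ≤ U.2.1 (z, y) ^ 2 := by
  intro z hz y hy
  refine h.v_le z ?_ y ?_
  · rw [H769.iv_pt]
    exact hz
  · rw [H769.iv_pt]
    exact hy

/-- **The fibres** of the data off the dense fibres. -/
theorem fib_DvM {p : H401.Num} {K : ℕ} {x : Pt} {s r P : ℝ} {U : Tri} {g : ℤ → ℤ → ℝ}
    {u v : ℤ → ℤ → ι → ℝ} (hL : 1 ≤ p.L) (ht : 0 < p.t) (ht1 : p.t ≤ 1) (hd : 0 ≤ p.d)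
    (hd8 : p.d ≤ 8) (hs : 0 < s) (hr : 1 ≤ r) (h : Cls K x s r P U g u v) :
    ∀ k ≤ K, ∀ z ∈ iv K (cx K x).1, ∀ y ∈ iv K (cx K x).2.2, ¬ sst p.Lm U.2.1 K k z y →
      ∑ y' ∈ iv k (ix k y), lo (DvM ι p K x s r U v) v z y' ⬝ᵥ lo (DvM ι p K x s r U v) v z y' ≤
        lamF p s r * 2 ^ k := by
  have hl := lamF_pos hL ht hs hr
  have hLm : 0 ≤ p.Lm := (Real.rpow_pos_of_pos ht _).le
  have h1 : p.Lm * min s 1 ≤ lamF p s r := by
    unfold lamF
    have e1 : p.Lm ≤ (r / p.t) ^ 8 := by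
      have e2 : p.Lm ≤ (1 / p.t) ^ 8 := by
        unfold H401.Num.Lm
        rw [Real.rpow_neg ht.le, one_div, inv_pow]
        refine inv_anti₀ (by positivity) ?_
        rw [← Real.rpow_natCast]
        exact Real.rpow_le_rpow_of_exponent_ge ht ht1 (by push_cast; exact hd8)
      refine e2.trans (pow_le_pow_left₀ (by positivity) ?_ 8)
      gcongr
    have e3 : min s 1 ≤ √s := by
      rcases le_total s 1 with hs1 | hs1
      · rw [min_eq_left hs1]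
        refine Real.le_sqrt_of_sq_le ?_
        nlinarith
      · rw [min_eq_right hs1]
        exact Real.one_le_sqrt.2 hs1
    have h0 : 0 ≤ min s 1 := le_min hs.le zero_le_one
    calc p.Lm * min s 1 ≤ (r / p.t) ^ 8 * √s := mul_le_mul e1 e3 h0 (by positivity)
      _ = 1 * ((r / p.t) ^ 8 * √s) := (one_mul _).symm
      _ ≤ p.L * ((r / p.t) ^ 8 * √s) := mul_le_mul_of_nonneg_right hL (by positivity)
  exact H444.FD.fib_sst hLm hl.le h1 (v_root h) fun z hz y hy => le_min (A2_root h z hz y hy).1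
    (A2_root h z hz y hy).2

/-- **The columns** of the dense fibres. -/
theorem col_DvM {p : H401.Num} {K : ℕ} {x : Pt} {s r P : ℝ} {U : Tri} {g : ℤ → ℤ → ℝ}
    {u v : ℤ → ℤ → ι → ℝ} (hL : 1 ≤ p.L) (ht : 0 < p.t) (hs : 0 < s) (hr : 1 ≤ r)
    (h : Cls K x s r P U g u v) :
    ∀ k ≤ K, ∀ z ∈ iv K (cx K x).1, ∀ y ∈ iv K (cx K x).2.2, ¬ sst p.Lm U.2.1 K k z y →
      ∑ z' ∈ iv k (ix k z), (if DvM ι p K x s r U v z' y then (1 : ℝ) else 0) ≤
        4 * p.Lm * √s * (p.t / r) ^ 8 * 2 ^ k := by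
  have hl := lamF_pos hL ht hs hr
  have hLm : 0 ≤ p.Lm := (Real.rpow_pos_of_pos ht _).le
  intro k hk z hz y hy hn
  refine (H444.FD.col_sst hLm hs.le hl (v_root h) (fun z hz y hy => (A2_root h z hz y hy).1) k hk
    z hz y hy hn).trans ?_
  refine mul_le_mul_of_nonneg_right ?_ (by positivity)
  rw [div_le_iff₀ hl]
  unfold lamF
  have hr0 : 0 < r := by linarith
  have hss : √s * √s = s := Real.mul_self_sqrt hs.le
  have e1 : (p.t / r) ^ 8 * (r / p.t) ^ 8 = 1 := by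
    rw [← mul_pow, div_mul_div_comm, mul_comm r p.t, div_self (by positivity), one_pow]
  calc 4 * (p.Lm * s) = 4 * p.Lm * (√s * √s) * ((p.t / r) ^ 8 * (r / p.t) ^ 8) * 1 := by
        rw [hss, e1]; ring
    _ ≤ 4 * p.Lm * (√s * √s) * ((p.t / r) ^ 8 * (r / p.t) ^ 8) * p.L :=
        mul_le_mul_of_nonneg_left hL (by rw [hss, e1]; positivity)
    _ = _ := by ring

end

end Vale.Agent.P141.H508
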